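import Vale.Agent.P257.C.Sign
import Vale.Agent.P251.H.StabInput
import Mathlib.Algebra.Ring.NegOnePow

/-!
# P257, block C: families of invertible objects

`Cells C Δ`: objects `obj d` (`d` in an abelian group) with `obj d ⊗ obj e ≅ obj (d + e)`.
-/

open CategoryTheory MonoidalCategory

namespace Vale.Agent.P257.C

open Vale.Agent.P251.H (tpow)

universe v u v' u'

/-- invertible objects indexed by an abelian group -/
structure Cells (C : Type u) [Category.{v} C] [MonoidalCategory C] (Δ : Type) [AddCommGroup Δ] where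
  /-- the cell of degree `d` -/
  obj : Δ → C
  /-- additivity -/
  add : ∀ d e, obj d ⊗ obj e ≅ obj (d + e)
  /-- the cell of degree zero -/
  zero : 𝟙_ C ≅ obj 0

namespace Cells

variable {C : Type u} [Category.{v} C] [MonoidalCategory C] {Δ Δ' : Type} [AddCommGroup Δ]
  [AddCommGroup Δ']

/-- the inverse of a cell -/
def inv (c : Cells C Δ) (d : Δ) : c.obj (-d) ⊗ c.obj d ≅ 𝟙_ C :=
  c.add _ _ ≪≫ eqToIso (by rw [neg_add_cancel]) ≪≫ c.zero.symm

/-- the inverse of a cell -/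
def inv' (c : Cells C Δ) (d : Δ) : c.obj d ⊗ c.obj (-d) ≅ 𝟙_ C :=
  c.add _ _ ≪≫ eqToIso (by rw [add_neg_cancel]) ≪≫ c.zero.symm

/-- image under a monoidal functor -/
def map {D : Type u'} [Category.{v'} D] [MonoidalCategory D] (c : Cells C Δ) (F : C ⥤ D)
    [F.Monoidal] : Cells D Δ where
  obj d := F.obj (c.obj d)
  add d e := Functor.Monoidal.μIso F _ _ ≪≫ F.mapIso (c.add d e)
  zero := Functor.Monoidal.εIso F ≪≫ F.mapIso c.zero

/-- reindexing -/
def comap (c : Cells C Δ) (φ : Δ' →+ Δ) : Cells C Δ' where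
  obj d := c.obj (φ d)
  add d e := c.add _ _ ≪≫ eqToIso (by rw [map_add])
  zero := c.zero ≪≫ eqToIso (by rw [map_zero])

variable [SymmetricCategory C]

/-- the interchange isomorphism -/
def midIso (A B A' B' : C) : (A ⊗ B) ⊗ (A' ⊗ B') ≅ (A ⊗ A') ⊗ (B ⊗ B') :=
  α_ _ _ _ ≪≫ whiskerLeftIso _ ((α_ _ _ _).symm ≪≫ whiskerRightIso (β_ B A') B' ≪≫ α_ _ _ _) ≪≫
    (α_ _ _ _).symm

/-- product of two families -/
def prod (c : Cells C Δ) (c' : Cells C Δ') : Cells C (Δ × Δ') where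
  obj d := c.obj d.1 ⊗ c'.obj d.2
  add _ _ := midIso _ _ _ _ ≪≫ (c.add _ _ ⊗ᵢ c'.add _ _)
  zero := (λ_ _).symm ≪≫ (c.zero ⊗ᵢ c'.zero)

/-- integer powers of an object `S` with inverse `L` -/
def zpow (S L : C) : ℤ → C
  | .ofNat n => tpow S n
  | .negSucc n => tpow L (n + 1)

variable {S L : C} (e : L ⊗ S ≅ 𝟙_ C)

/-- `S ⊗ S ^ k ≅ S ^ (k + 1)` -/
def zpowSucc : ∀ k : ℤ, S ⊗ zpow S L k ≅ zpow S L (k + 1)
  | .ofNat _ => Iso.refl _
  | .negSucc 0 => (α_ _ _ _).symm ≪≫ whiskerRightIso (β_ _ _ ≪≫ e) _ ≪≫ λ_ _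
  | .negSucc (_ + 1) => (α_ _ _ _).symm ≪≫ whiskerRightIso (β_ _ _ ≪≫ e) _ ≪≫ λ_ _

/-- `L ⊗ S ^ k ≅ S ^ (k - 1)` -/
def zpowPred (k : ℤ) : L ⊗ zpow S L k ≅ zpow S L (k - 1) :=
  whiskerLeftIso L (eqToIso (congrArg _ (sub_add_cancel k 1).symm) ≪≫ (zpowSucc e (k - 1)).symm) ≪≫
    (α_ _ _ _).symm ≪≫ whiskerRightIso e _ ≪≫ λ_ _

/-- `S ^ k ⊗ S ^ l ≅ S ^ (k + l)` -/
def zpowAdd : ∀ k l : ℤ, zpow S L k ⊗ zpow S L l ≅ zpow S L (k + l)
  | .ofNat n, l => Nat.rec (λ_ _ ≪≫ eqToIso (congrArg _ (zero_add l).symm))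
      (fun n i => α_ _ _ _ ≪≫ whiskerLeftIso S i ≪≫ zpowSucc e _ ≪≫
        eqToIso (congrArg _ (add_right_comm (n : ℤ) l 1))) n
  | .negSucc n, l => Nat.rec (whiskerRightIso (ρ_ L) _ ≪≫ zpowPred e l ≪≫
        eqToIso (congrArg _ (neg_add_eq_sub 1 l).symm))
      (fun n i => α_ _ _ _ ≪≫ whiskerLeftIso L i ≪≫ zpowPred e _ ≪≫
        eqToIso (congrArg _ (by simp only [Int.negSucc_eq]; push_cast; ring))) n

/-- the family of integer powers -/
def ofInv : Cells C ℤ where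
  obj := zpow S L
  add := zpowAdd e
  zero := Iso.refl _

/-- the cell of degree one -/
def ofInvOne : (ofInv e).obj 1 ≅ S := ρ_ S

/-- the cell of degree minus one -/
def ofInvNegOne : (ofInv e).obj (-1) ≅ L := ρ_ L

variable [Preadditive C] [MonoidalPreadditive C]

theorem hasSign_add (c : Cells C Δ) {d d' : Δ} {a b : ℤ} (h : HasSign (c.obj d) a)
    (k : HasSign (c.obj d') b) : HasSign (c.obj (d + d')) (a * b) :=
  (h.tensor k).of_iso (c.add _ _)

theorem hasSign_neg (c : Cells C Δ) {d : Δ} {a : ℤ} (h : HasSign (c.obj d) a) :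
    HasSign (c.obj (-d)) a := h.inv (c.inv d)

/-- The signs of the powers of an odd object. -/
theorem hasSign_int (c : Cells C ℤ) (h : HasSign (c.obj 1) (-1)) (k : ℤ) :
    HasSign (c.obj k) k.negOnePow := by
  induction k using Int.induction_on with
  | zero => exact HasSign.unit.of_iso c.zero
  | succ n ih => simpa [Int.negOnePow_succ] using c.hasSign_add ih h
  | pred n ih =>
    simpa [Int.negOnePow_sub, sub_eq_add_neg, Int.negOnePow_add] using
      c.hasSign_add ih (c.hasSign_neg h)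

theorem hasSign_prod (c : Cells C Δ) (c' : Cells C Δ') {d : Δ} {d' : Δ'} {a b : ℤ}
    (h : HasSign (c.obj d) a) (k : HasSign (c'.obj d') b) :
    HasSign ((c.prod c').obj (d, d')) (a * b) := h.tensor k

end Cells

end Vale.Agent.P257.C
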