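import Vale.Agent.P257.C.Sign
import Vale.Agent.P251.G.GLn
import Vale.Agent.P251.G.Pinch
import Vale.Agent.P251.G.Pushout
import Vale.Agent.P251.G.DegLC
import Vale.Agent.P251.H.Loop
import Vale.Agent.P251.H.SwapRR

/-!
# P257, block C: degrees of maps of spheres in a stable category

`SphFun T`: a homotopy invariant functor from spaces to a preadditive category which preserves
zero maps and wedges.  Then `T` is additive on maps with disjoint supports, the reflection of the
line is `-1`, and, if `T` is monoidal and `- ⊗ S¹` is faithful, a self map of a sphere is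
multiplication by its degree.
-/

open CategoryTheory MonoidalCategory Limits Topology OnePoint

namespace Vale.Agent.P257.C

open Vale.Agent.P251.G Vale.Agent.P251.G.LC Vale.Agent.P205.TI.Deg

universe v u

/-- the wedge of two maps with disjoint supports -/
theorem exists_wedge {X Y Z : LC} (g : X ⟶ Y) (h : X ⟶ Z) (H : ∀ x, app g x = ∞ ∨ app h x = ∞) :
    ∃ w : X ⟶ sum Y Z, w ≫ sumDesc (𝟙 Y) 0 = g ∧ w ≫ sumDesc 0 (𝟙 Z) = h ∧
      ∀ x, (app h x = ∞ → app w x = app (sumInl Y Z) (app g x)) ∧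
        (app g x = ∞ → app w x = app (sumInr Y Z) (app h x)) := by
  classical
  let a : sum Y Z ⟶ Y := sumDesc (𝟙 Y) 0
  let b : sum Y Z ⟶ Z := sumDesc 0 (𝟙 Z)
  have a1 : ∀ y, app a (app (sumInl Y Z) y) = y := fun y => congrArg (app · y) (sumInl_desc _ _)
  have a2 : ∀ y, app a (app (sumInr Y Z) y) = ∞ := fun y => congrArg (app · y) (sumInr_desc _ _)
  have b1 : ∀ y, app b (app (sumInl Y Z) y) = ∞ := fun y => congrArg (app · y) (sumInl_desc _ _)
  have b2 : ∀ y, app b (app (sumInr Y Z) y) = y := fun y => congrArg (app · y) (sumInr_desc _ _)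
  let w : OnePoint X → OnePoint (sum Y Z) := fun x =>
    if app h x = ∞ then app (sumInl Y Z) (app g x) else app (sumInr Y Z) (app h x)
  have w1 : ∀ x, app h x = ∞ → w x = app (sumInl Y Z) (app g x) := fun x k => if_pos k
  have w2 : ∀ x, app g x = ∞ → w x = app (sumInr Y Z) (app h x) := fun x k => by
    by_cases l : app h x = ∞
    · rw [w1 x l, k, l, app_infty, app_infty]
    · exact if_neg l
  have wa : ∀ x, app a (w x) = app g x := fun x => (H x).elim
    (fun k => by rw [w2 x k, a2, k]) fun k => by rw [w1 x k, a1]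
  have wb : ∀ x, app b (w x) = app h x := fun x => (H x).elim
    (fun k => by rw [w2 x k, b2]) fun k => by rw [w1 x k, b1, k]
  have c : ∀ s : OnePoint (sum Y Z), (∃ y, s = app (sumInl Y Z) y) ∨ ∃ y, s = app (sumInr Y Z) y :=
    fun s => by
      induction s using OnePoint.rec with
      | infty => exact .inl ⟨∞, rfl⟩
      | coe s => rcases s with y | y; exacts [.inl ⟨y, rfl⟩, .inr ⟨y, rfl⟩]
  have inj : Function.Injective fun s => (app a s, app b s) := fun s t e => by
    obtain ⟨e1, e2⟩ := Prod.ext_iff.1 e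
    rcases c s with ⟨y, rfl⟩ | ⟨y, rfl⟩ <;> rcases c t with ⟨z, rfl⟩ | ⟨z, rfl⟩ <;>
      simp only [a1, a2, b1, b2] at e1 e2
    · rw [e1]
    · rw [e1, ← e2, app_infty, app_infty]
    · rw [← e1, e2, app_infty, app_infty]
    · rw [e2]
  have emb := ((continuous_app a).prodMk (continuous_app b)).isClosedEmbedding inj
  have cw : Continuous w := emb.isInducing.continuous_iff.2 (by
    have : (fun s => (app a s, app b s)) ∘ w = fun x => (app g x, app h x) :=
      funext fun x => Prod.ext (wa x) (wb x)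
    rw [this]
    fun_prop)
  exact ⟨⟨⟨w, cw⟩, (w1 ∞ (app_infty h)).trans (by rw [app_infty, app_infty])⟩,
    hom_ext fun x => wa x, hom_ext fun x => wb x, fun x => ⟨w1 x, w2 x⟩⟩

variable {C : Type u} [Category.{v} C] [Preadditive C]

/-- homotopy invariant functors which preserve zero maps and wedges -/
structure SphFun (T : LC ⥤ C) : Prop where
  htpy : ∀ {X Y : LC} {f g : X ⟶ Y}, Homotopic f g → T.map f = T.map g
  zero : ∀ X Y : LC, T.map (0 : X ⟶ Y) = 0
  ext : ∀ {X Y : LC} {Z : C} (f : T.obj (sum X Y) ⟶ Z), T.map (sumInl X Y) ≫ f = 0 →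
    T.map (sumInr X Y) ≫ f = 0 → f = 0

namespace SphFun

variable {T : LC ⥤ C} (h : SphFun T) {X Y Z : LC}
include h

theorem map_sumDesc (f : X ⟶ Z) (g : Y ⟶ Z) : T.map (sumDesc f g) =
    T.map (sumDesc (𝟙 X) 0) ≫ T.map f + T.map (sumDesc 0 (𝟙 Y)) ≫ T.map g := by
  refine sub_eq_zero.1 (h.ext _ ?_ ?_) <;>
    simp only [Preadditive.comp_sub, Preadditive.comp_add, ← T.map_comp,
      sumInl_desc, sumInr_desc, sumInl_desc_assoc, sumInr_desc_assoc, Category.id_comp, zero_comp,
      h.zero, add_zero, zero_add, sub_self]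

theorem exists_add (f g : X ⟶ Y) (H : ∀ x, app f x = ∞ ∨ app g x = ∞) :
    ∃ s : X ⟶ Y, T.map s = T.map f + T.map g ∧
      ∀ x, (app g x = ∞ → app s x = app f x) ∧ (app f x = ∞ → app s x = app g x) := by
  obtain ⟨w, w1, w2, w3⟩ := exists_wedge f g H
  refine ⟨w ≫ sumDesc (𝟙 Y) (𝟙 Y), ?_, fun x => ⟨fun k => ?_, fun k => ?_⟩⟩
  · rw [T.map_comp, h.map_sumDesc, T.map_id, Category.comp_id, Category.comp_id,
      Preadditive.comp_add, ← T.map_comp, ← T.map_comp, w1, w2]
  · rw [app_comp, (w3 x).1 k, ← app_comp, sumInl_desc, app_id]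
  · rw [app_comp, (w3 x).2 k, ← app_comp, sumInr_desc, app_id]

/-- additivity for two maps with disjoint supports -/
theorem add {s f g : X ⟶ Y} (H : ∀ x : X, (app g x = ∞ ∧ app s x = app f x) ∨
    (app f x = ∞ ∧ app s x = app g x)) : T.map s = T.map f + T.map g := by
  obtain ⟨s', k, l⟩ := h.exists_add f g fun x => by
    induction x using OnePoint.rec with
    | infty => exact .inl (app_infty f)
    | coe x => exact (H x).symm.imp And.left And.left
  rw [← k]
  exact congrArg _ (hom_ext fun x => (H x).elim (fun e => e.2.trans ((l x).1 e.1).symm)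
    fun e => e.2.trans ((l x).2 e.1).symm)

/-- additivity for maps with disjoint supports -/
theorem map_sum {ι : Type*} (s : Finset ι) {f : X ⟶ Y} {g : ι → (X ⟶ Y)} {U : ι → Set X}
    (hd : (s : Set ι).PairwiseDisjoint U)
    (h1 : ∀ i ∈ s, ∀ x ∈ U i, app f (x : OnePoint X) = app (g i) x)
    (h2 : ∀ i ∈ s, ∀ x : X, x ∉ U i → app (g i) (x : OnePoint X) = ∞)
    (h3 : ∀ x : X, (∀ i ∈ s, x ∉ U i) → app f (x : OnePoint X) = ∞) :
    T.map f = ∑ i ∈ s, T.map (g i) := by
  classical
  have k : ∀ t ⊆ s, ∃ F : X ⟶ Y, T.map F = ∑ i ∈ t, T.map (g i) ∧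
      (∀ i ∈ t, ∀ x ∈ U i, app F (x : OnePoint X) = app (g i) x) ∧
      ∀ x : X, (∀ i ∈ t, x ∉ U i) → app F (x : OnePoint X) = ∞ := fun t => by
    induction t using Finset.induction_on with
    | empty => exact fun _ => ⟨0, h.zero _ _, by simp, fun _ _ => rfl⟩
    | insert a t n ih =>
      intro ht
      obtain ⟨ha, ht⟩ := Finset.insert_subset_iff.1 ht
      obtain ⟨F, k1, k2, k3⟩ := ih ht
      have d : ∀ i ∈ t, ∀ x ∈ U a, x ∉ U i := fun i hi x hx =>
        Set.disjoint_left.1 (hd ha (ht hi) fun e => n (e ▸ hi)) hx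
      obtain ⟨F', l1, l2⟩ := h.exists_add (g a) F fun x => by
        induction x using OnePoint.rec with
        | infty => exact .inl (app_infty _)
        | coe x =>
          by_cases hx : x ∈ U a
          · exact .inr (k3 x fun i hi => d i hi x hx)
          · exact .inl (h2 a ha x hx)
      refine ⟨F', by rw [l1, k1, Finset.sum_insert n], fun i hi x hx => ?_, fun x hx => ?_⟩
      · rcases Finset.mem_insert.1 hi with rfl | hi
        · exact (l2 x).1 (k3 x fun j hj => d j hj x hx)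
        · exact ((l2 x).2 (h2 a ha x fun e => d i hi x e hx)).trans (k2 i hi x hx)
      · exact ((l2 x).2 (h2 a ha x (hx a (Finset.mem_insert_self _ _)))).trans
          (k3 x fun i hi => hx i (Finset.mem_insert_of_mem hi))
  obtain ⟨F, k1, k2, k3⟩ := k s le_rfl
  rw [← k1]
  refine congrArg _ (hom_ext fun x => ?_)
  by_cases hx : ∃ i ∈ s, x ∈ U i
  · obtain ⟨i, hi, hx⟩ := hx
    rw [h1 i hi x hx, k2 i hi x hx]
  · push Not at hx
    rw [h3 x hx, k3 x hx]

theorem map_cat (f g : RR ⟶ Z) : T.map (cat f g) = T.map f + T.map g := by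
  rw [← h.htpy (cat_zero f), ← h.htpy (zero_cat g)]
  refine h.add fun x => ?_
  simp only [cat, app_ofLoop_coe, Path.trans_apply]
  split_ifs
  exacts [.inl ⟨rfl, rfl⟩, .inr ⟨rfl, rfl⟩]

/-- The reflection of the line is `-1`. -/
theorem map_neg : T.map neg = -𝟙 _ := by
  have k := h.htpy (rev_cat (𝟙 RR))
  rw [h.map_cat, h.zero, ← neg_comp, Category.comp_id, T.map_id] at k
  exact eq_neg_of_add_eq_zero_left k

theorem map_mfold (m : ℕ) : T.map (mfold m) = m • 𝟙 _ := by
  rw [h.map_sum (Finset.range m) (g := fun i => collapseBall (i : ℝ) (1 / 2) (by norm_num))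
    (U := fun i => Metric.ball (i : ℝ) (1 / 2)) (fun i _ j _ hij => ball_disjoint hij)
    (fun i hi x hx => app_mfold_of_mem (Finset.mem_range.1 hi) hx)
    (fun i _ x hx => app_ofOpen_of_notMem (X := LC.of ℝ) (Y := LC.of ℝ) (ballEmb (i : ℝ) (1 / 2))
      (isOpenEmbedding_ballEmb (i : ℝ) (by norm_num)) (x := x)
      (fun h => hx ((mem_range_ballEmb' (i : ℝ) (by norm_num)).1 h)))
    fun x hx => app_mfold_of_notMem fun i hi => hx i (Finset.mem_range.2 hi),
    Finset.sum_congr rfl fun i _ => (h.htpy (homotopic_collapseBall _ _)).trans (T.map_id _),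
    Finset.sum_const, Finset.card_range]

variable {E : Type} [NormedAddCommGroup E] [NormedSpace ℝ E] [FiniteDimensional ℝ E]
  [ProperSpace E]

theorem map_lin_pos (a : E ≃L[ℝ] E) (k : 0 < (a : E →L[ℝ] E).det) : T.map (lin a) = 𝟙 _ :=
  (h.htpy (homotopic_lin_id a k)).trans (T.map_id _)

variable [MonoidalCategory C] [MonoidalPreadditive C] [T.Monoidal]
  (inj : ∀ {A B : C} (f : A ⟶ B), f ▷ T.obj RR = 0 → f = 0)
include inj

theorem map_lin_neg (a : E ≃L[ℝ] E) (k : (a : E →L[ℝ] E).det < 0) : T.map (lin a) = -𝟙 _ := by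
  have k1 : Homotopic (lin a ▷ RR) (LC.of E ◁ neg) := by
    have e1 : ((a.prodCongr (.refl ℝ ℝ) : (E × ℝ) ≃L[ℝ] _) : (E × ℝ) →L[ℝ] _).det =
        (a : E →L[ℝ] E).det * LinearMap.det (LinearMap.id : ℝ →ₗ[ℝ] ℝ) :=
      LinearMap.det_prodMap ((a : E →L[ℝ] E) : E →ₗ[ℝ] E) LinearMap.id
    have e2 : (((ContinuousLinearEquiv.refl ℝ E).prodCongr (.neg ℝ) : (E × ℝ) ≃L[ℝ] _) :
        (E × ℝ) →L[ℝ] _).det = LinearMap.det (LinearMap.id : E →ₗ[ℝ] E) *
          LinearMap.det (-LinearMap.id : ℝ →ₗ[ℝ] ℝ) :=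
      LinearMap.det_prodMap LinearMap.id (-LinearMap.id : ℝ →ₗ[ℝ] ℝ)
    have := homotopic_lin_of_det (a.prodCongr (.refl ℝ ℝ))
      ((ContinuousLinearEquiv.refl ℝ E).prodCongr (.neg ℝ)) (by
        rw [e1, e2, LinearMap.det_ring]
        simpa using k)
    rwa [show lin (a.prodCongr (.refl ℝ ℝ)) = lin a ▷ RR from hom_ext fun _ => rfl,
      show lin ((ContinuousLinearEquiv.refl ℝ E).prodCongr (.neg ℝ)) = LC.of E ◁ neg from
        hom_ext fun _ => rfl] at this
  have k2 := h.htpy k1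
  rw [Functor.Monoidal.map_whiskerRight, Functor.Monoidal.map_whiskerLeft, cancel_epi,
    cancel_mono, h.map_neg] at k2
  refine sub_eq_zero.1 (inj _ ?_)
  rw [sub_neg_eq_add, MonoidalPreadditive.add_whiskerRight, k2, id_whiskerRight,
    ← MonoidalCategory.whiskerLeft_id, ← MonoidalPreadditive.whiskerLeft_add, neg_add_cancel,
    MonoidalPreadditive.whiskerLeft_zero]

theorem map_lin (a : E ≃L[ℝ] E) : T.map (lin a) = sg (a : E →L[ℝ] E).det • 𝟙 _ := by
  have n : (a : E →L[ℝ] E).det ≠ 0 := a.toLinearEquiv.isUnit_det'.ne_zero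
  rcases lt_or_gt_of_ne n with k | k
  · rw [sg_neg k, neg_one_smul, h.map_lin_neg inj a k]
  · rw [sg_pos k, one_smul, h.map_lin_pos a k]

/-- A self map of a sphere is multiplication by its degree. -/
theorem map_deg (f : LC.of E ⟶ LC.of E) {n : ℤ} (k : deg f = n) : T.map f = n • 𝟙 _ := by
  obtain ⟨m, a, c, hc, hf⟩ := exists_branches f
  let U : Fin m → Set E := fun i => {x | ∃ y, app c (x : OnePoint E) = ((i, y) : Fin m × E)}
  have hd : ((Finset.univ : Finset (Fin m)) : Set (Fin m)).PairwiseDisjoint U :=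
    fun i _ j _ n => Set.disjoint_left.2 fun x ⟨y, e⟩ ⟨z, e'⟩ =>
      n (congrArg Prod.fst (OnePoint.coe_injective (e.symm.trans e')))
  have h1 : ∀ i ∈ Finset.univ, ∀ x ∈ U i, app (c ≫ fold a) (x : OnePoint E) =
      app ((c ≫ comp' i) ≫ lin (a i)) x := fun i _ x ⟨y, e⟩ => by
    rw [app_comp, app_comp, app_comp, e, comp']
    exact (congrArg (app (lin (a i))) (app_ofOpen_coe (X := LC.of (Fin m × E)) (Y := LC.of E)
      (fun y => (i, y)) (isOpenEmbedding_mk i) y)).symm
  have h2 : ∀ i ∈ Finset.univ, ∀ x : E, x ∉ U i →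
      app ((c ≫ comp' i) ≫ lin (a i)) (x : OnePoint E) = ∞ := fun i _ x n => by
    rw [app_comp, app_comp]
    generalize e : app c (x : OnePoint E) = z
    induction z using OnePoint.rec with
    | infty => rw [app_infty, app_infty]
    | coe z =>
      rw [comp', app_ofOpen_of_notMem (X := LC.of (Fin m × E)) (Y := LC.of E) _ _
        fun ⟨y, l⟩ => n ⟨y, e.trans (congrArg _ l.symm)⟩, app_infty]
  have h3 : ∀ x : E, (∀ i ∈ Finset.univ, x ∉ U i) → app (c ≫ fold a) (x : OnePoint E) = ∞ :=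
    fun x n => by
      rw [app_comp]
      generalize e : app c (x : OnePoint E) = z
      induction z using OnePoint.rec with
      | infty => rw [app_infty]
      | coe z => exact (n z.1 (Finset.mem_univ _) ⟨z.2, e⟩).elim
  have h4 : ∀ i, Homotopic ((c ≫ comp' i) ≫ lin (a i)) (lin (a i)) := fun i => by
    simpa using (hc i).comp_right (lin (a i))
  rw [deg_homotopic hf, deg_sum _ hd h1 h2 h3, Finset.sum_congr rfl fun i _ =>
    (deg_homotopic (h4 i)).trans (deg_linear (a i)), ← Int.cast_sum, Int.cast_inj] at k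
  rw [h.htpy hf, h.map_sum _ hd h1 h2 h3, ← k, Finset.sum_smul]
  exact Finset.sum_congr rfl fun i _ => (h.htpy (h4 i)).trans (h.map_lin inj _)

/-- A permutation of the coordinates is multiplication by its sign. -/
theorem map_perm {κ : Type} [Fintype κ] [DecidableEq κ] (σ : Equiv.Perm κ)
    (f : LC.of (κ → ℝ) ⟶ LC.of (κ → ℝ))
    (k : ∀ x : κ → ℝ, app f (x : OnePoint (κ → ℝ)) = ((x ∘ σ : κ → ℝ) : OnePoint (κ → ℝ))) :
    T.map f = (Equiv.Perm.sign σ : ℤ) • 𝟙 _ := by
  let a : (κ → ℝ) ≃L[ℝ] κ → ℝ := (LinearEquiv.funCongrLeft ℝ ℝ σ).toContinuousLinearEquiv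
  have e : (a : (κ → ℝ) →L[ℝ] κ → ℝ).det = (Equiv.Perm.sign σ : ℤ) := by
    rw [← Matrix.det_permutation, ← LinearMap.det_toLin']
    exact congrArg LinearMap.det (LinearMap.ext fun x => (Matrix.permMatrix_mulVec σ).symm)
  rw [show f = lin a from hom_ext k, h.map_lin inj, e]
  rcases Int.units_eq_one_or (Equiv.Perm.sign σ) with l | l <;> simp [l, sg]

omit inj [MonoidalPreadditive C] [T.Monoidal] in
theorem hasSign_RR [SymmetricCategory C] [MonoidalPreadditive C] [T.Braided] :
    HasSign (T.obj RR) (-1) := by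
  have k := h.htpy P251.H.homotopic_swap
  rw [Functor.Monoidal.map_whiskerRight, Functor.map_braiding, cancel_epi, cancel_mono,
    show P251.H.negRR = neg from rfl, h.map_neg, ← neg_one_zsmul, zsmul_whiskerRight,
    id_whiskerRight] at k
  exact k.symm

omit inj [MonoidalPreadditive C] [T.Monoidal] in
/-- The sign of a sphere is the parity of its dimension. -/
theorem hasSign [SymmetricCategory C] [MonoidalPreadditive C] [T.Braided] :
    HasSign (T.obj (LC.of E)) ((-1) ^ Module.finrank ℝ E) := by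
  have k : ∀ n, HasSign (T.obj (Sph n)) ((-1) ^ n) := fun n => by
    induction n with
    | zero =>
      exact HasSign.unit.of_iso (Functor.Monoidal.εIso T ≪≫ T.mapIso
        (ofHomeo (X := 𝟙_ LC) (Y := Sph 0) (Homeomorph.homeomorphOfUnique PUnit _)))
    | succ n ih =>
      rw [pow_succ]
      exact (ih.tensor h.hasSign_RR).of_iso (Functor.Monoidal.μIso T _ _ ≪≫ T.mapIso
        (ofHomeo (X := Sph n ⊗ RR) (Y := Sph (n + 1)) (ContinuousLinearEquiv.ofFinrankEq
          (𝕜 := ℝ) (E := (Fin n → ℝ) × ℝ) (F := Fin (n + 1) → ℝ) (by simp)).toHomeomorph))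
  exact (k _).of_iso (T.mapIso (ofHomeo (X := Sph _) (Y := LC.of E)
    (ContinuousLinearEquiv.ofFinrankEq (𝕜 := ℝ) (E := Fin _ → ℝ) (F := E) (by simp)).toHomeomorph))

end SphFun

end Vale.Agent.P257.C
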