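import Vale.Agent.P257.C.Supp
import Vale.Agent.P257.E.Stab
import Vale.Agent.P251.H.PiGrp

/-!
# P257, block C: stable classes only see the degrees of their source
-/

open CategoryTheory MonoidalCategory Limits Pointwise

namespace Vale.Agent.P257.C

open Vale.Agent.P251.H Vale.Agent.P251.H.StabInput Vale.Agent.P257.D

universe v u

theorem bijective_pi_map {K : Type u} [Category.{v} K] (P : CoPt K) (A : K) {X Y : K} (f : X ⟶ Y)
    (h : ∀ k, Function.Bijective fun x : P.pw k A ⟶ X => x ≫ f) :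
    Function.Bijective (P.map A f) := by
  refine ⟨fun x y e => ?_, fun y => ?_⟩
  · obtain ⟨k, x, y, rfl, rfl⟩ := CoPt.cl_surj₂ x y
    obtain ⟨m, l, e⟩ := (CoPt.cl_eq_iff' _ _).1 e
    exact (CoPt.cl_eq_iff' _ _).2 ⟨m, l, (h m).1 (by simpa using e)⟩
  · obtain ⟨k, y, rfl⟩ := CoPt.cl_surj y
    obtain ⟨x, rfl⟩ := (h k).2 y
    exact ⟨P.cl k x, rfl⟩

section

variable {M : Type u} [Category.{v} M] [MonoidalCategory M] [SymmetricCategory M]
  [MonoidalClosed M] [HasZeroMorphisms M] [HasColimitsOfSize.{0, 0} M] [StabInput M]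

theorem bijective_HM {A X Y : M} (f : X ⟶ Y) (h : Function.Bijective fun x : A ⟶ X => x ≫ f)
    (k : Function.Bijective fun x : A ⊗ I M ⟶ X => x ≫ f) : Function.Bijective
      fun x : (HM.proj M).obj A ⟶ (HM.proj M).obj X => x ≫ (HM.proj M).map f := by
  refine ⟨fun x y e => ?_, fun y => ?_⟩
  · obtain ⟨x, rfl⟩ := HM.proj_map_surjective x
    obtain ⟨y, rfl⟩ := HM.proj_map_surjective y
    obtain ⟨H, h0, h1⟩ : MHtpy (x ≫ f) (y ≫ f) := Quotient.exact e
    obtain ⟨H, rfl⟩ := k.2 H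
    exact HM.sound ⟨H, h.1 ((Category.assoc _ _ _).trans h0), h.1 ((Category.assoc _ _ _).trans h1)⟩
  · obtain ⟨y, rfl⟩ := HM.proj_map_surjective y
    obtain ⟨x, rfl⟩ := h.2 y
    exact ⟨(HM.proj M).map x, rfl⟩

/-- locality of stable classes -/
theorem bijective_pi_of_prop (D : StabObj (HM M)) (Q : M → Prop)
    (hU : ∀ A, Q A → Q ((D.L.obj ⊗ D.S.obj) ⊗ A)) (hI : ∀ A, Q A → Q (A ⊗ I M)) {X Y : M}
    (f : X ⟶ Y) (h : ∀ A, Q A → Function.Bijective fun x : A ⟶ X => x ≫ f) {A : M} (hA : Q A) :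
    Function.Bijective (D.coPt.map ⟨A⟩ ((HM.proj M).map f)) :=
  bijective_pi_map _ _ _ fun k => by
    have l : Q (D.coPt.pw k ⟨A⟩).obj := by
      induction k with
      | zero => exact hA
      | succ k ih => exact hU _ ih
    exact bijective_HM f (h _ l) (h _ (hI _ l))

end

variable {J : Type} [Idx J] [SphIdx J] {Γ : Type} [AddCommMonoid Γ] [Preorder Γ]
  [IsOrderedAddMonoid Γ] {P : Set Γ}

theorem bijective_pi_of_deg (D : StabObj (HM (EF (Gr J Γ)))) (hL : Deg D.L.obj {0})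
    (hS : Deg D.S.obj {0}) {A X Y : EF (Gr J Γ)} (hA : Deg A P) {f : X ⟶ Y} (hf : DegIso J P f) :
    Function.Bijective (D.coPt.map ⟨A⟩ ((HM.proj _).map f)) :=
  bijective_pi_of_prop D (Deg · P) (fun _ h => (hL.tensor_zero hS).zero_tensor h)
    (fun _ h => h.tensor_zero (.jC _)) f (fun _ h => h.coloc f hf) hA

theorem bijective_pi_of_deg_action {G : Type} [Group G]
    (D : StabObj (HM (Action (EF (Gr J Γ)) G))) (hL : Deg D.L.obj.V {0})
    (hS : Deg D.S.obj.V {0}) {A X Y : Action (EF (Gr J Γ)) G} (hA : Deg A.V P) {f : X ⟶ Y}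
    (hf : DegIso J P f.hom) : Function.Bijective (D.coPt.map ⟨A⟩ ((HM.proj _).map f)) :=
  bijective_pi_of_prop D (Deg ·.V P) (fun _ h => (hL.tensor_zero hS).zero_tensor h)
    (fun _ h => h.tensor_zero (.jC _)) f (fun _ h => coloc_action h.coloc f hf) hA

end Vale.Agent.P257.C
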