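import Vale.Agent.P257.A.Big
import Mathlib.CategoryTheory.Monoidal.Preadditive
import Mathlib.GroupTheory.Perm.Sign
import Mathlib.CategoryTheory.Monoidal.CoherenceLemmas

/-!
# P257, block C: signs in a preadditive symmetric monoidal category

`HasSign X ε`: the braiding of `X ⊗ X` is `ε • 𝟙`.  Then permutations act on `X ^ ι` through the
sign character.
-/

open CategoryTheory MonoidalCategory

namespace Vale.Agent.P257.C

open Vale.Agent.P257.A

universe v u

variable {M : Type u} [Category.{v} M] [MonoidalCategory M] [SymmetricCategory M] [Preadditive M]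
  [MonoidalPreadditive M] {X Y Z W : M} {a b : ℤ}

omit [SymmetricCategory M] in
theorem whiskerLeft_zsmul (X : M) (n : ℤ) (f : Y ⟶ Z) : X ◁ (n • f) = n • X ◁ f :=
  (tensorLeft X).map_zsmul

omit [SymmetricCategory M] in
theorem zsmul_whiskerRight (n : ℤ) (f : Y ⟶ Z) (X : M) : (n • f) ▷ X = n • f ▷ X :=
  (tensorRight X).map_zsmul

omit [SymmetricCategory M] in
theorem zsmul_tensorHom (m n : ℤ) (f : X ⟶ Y) (g : Z ⟶ W) :
    (m • f) ⊗ₘ (n • g) = (m * n) • (f ⊗ₘ g) := by
  rw [tensorHom_def, tensorHom_def, whiskerLeft_zsmul, zsmul_whiskerRight, Preadditive.zsmul_comp,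
    Preadditive.comp_zsmul, smul_smul]

/-- the braiding of `X ⊗ X` is multiplication by `ε` -/
def HasSign (X : M) (ε : ℤ) : Prop := (β_ X X).hom = ε • 𝟙 (X ⊗ X)

namespace HasSign

omit [MonoidalPreadditive M] in
theorem of_iso (h : HasSign X a) (e : X ≅ Y) : HasSign Y a := by
  rw [HasSign, ← cancel_epi (e.hom ⊗ₘ e.hom), BraidedCategory.braiding_naturality, h,
    Preadditive.zsmul_comp, Preadditive.comp_zsmul, Category.id_comp, Category.comp_id]

omit [MonoidalPreadditive M] in
theorem unit : HasSign (𝟙_ M) 1 := by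
  rw [HasSign, one_smul, ← cancel_mono (λ_ (𝟙_ M)).hom, braiding_leftUnitor, Category.id_comp,
    unitors_equal]

theorem tensor (h : HasSign X a) (k : HasSign Y b) : HasSign (X ⊗ Y) (a * b) := by
  have : IsIso (tensorμ X X Y Y) := by
    unfold tensorμ
    infer_instance
  rw [HasSign, ← cancel_epi (tensorμ X X Y Y), SymmetricCategory.tensorμ_braid_swap, h, k,
    zsmul_tensorHom, Preadditive.zsmul_comp, Preadditive.comp_zsmul, id_tensorHom_id,
    Category.id_comp, Category.comp_id]

/-- the sign of a tensor inverse -/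
theorem inv (h : HasSign X a) (e : Y ⊗ X ≅ 𝟙_ M) : HasSign Y a := by
  have : IsIso (tensorμ Y Y X X) := by
    unfold tensorμ
    infer_instance
  have inj : ∀ {A B : M} {f g : A ⟶ B}, f ▷ X = g ▷ X → f = g := fun {A B f g} k => by
    have k1 : f ▷ (X ⊗ Y) = g ▷ (X ⊗ Y) := by
      rw [whiskerRight_tensor, whiskerRight_tensor, k]
    have k2 : ∀ f : A ⟶ B, f ▷ (X ⊗ Y) = A ◁ (β_ X Y ≪≫ e).hom ≫ (ρ_ A).hom ≫ f ≫ (ρ_ B).inv ≫
        B ◁ (β_ X Y ≪≫ e).inv := fun f => by
      rw [← whiskerRight_id_assoc, whisker_exchange_assoc, whiskerLeft_hom_inv, Category.comp_id]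
    simpa only [k2, cancel_epi, ← Category.assoc, cancel_mono] using k1
  have k := SymmetricCategory.tensorμ_braid_swap Y X
  rw [unit.of_iso e.symm, h, one_smul, Category.comp_id, ← one_smul ℤ (β_ Y Y).hom,
    zsmul_tensorHom, ← cancel_mono (CategoryTheory.inv (tensorμ Y Y X X)), Category.assoc,
    IsIso.hom_inv_id, Category.comp_id, one_mul, tensorHom_id, whiskerRight_tensor] at k
  have k2 : a • (β_ Y Y).hom = 𝟙 _ := inj (inj (by
    rw [zsmul_whiskerRight, zsmul_whiskerRight, id_whiskerRight, id_whiskerRight,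
      ← cancel_epi (α_ _ _ _).inv, ← cancel_mono (α_ _ _ _).hom, Preadditive.comp_zsmul,
      Preadditive.zsmul_comp, Category.assoc, ← k, Category.comp_id, Iso.inv_hom_id]))
  rw [HasSign, ← SymmetricCategory.symmetry Y Y, ← Preadditive.zsmul_comp, k2, Category.id_comp]

theorem bigT {ι : Type} [Fintype ι] {X : ι → M} {a : ι → ℤ} (h : ∀ i, HasSign (X i) (a i)) :
    HasSign (big X) (∏ i, a i) := by
  have k : ∀ l : List ι, HasSign (evL X l) (l.map a).prod := fun l => by
    induction l with
    | nil => exact unit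
    | cons i l ih => exact (h i).tensor ih
  have e : ∏ i, a i = ((enum ι).map a).prod := by
    rw [enum, Finset.prod_map_toList]
    exact Finset.prod_congr (Finset.ext fun i => iff_of_true (Finset.mem_univ _)
      (@Finset.mem_univ _ (Fintype.ofFinite ι) _)) fun _ _ => rfl
  exact e ▸ k _

theorem swap (h : HasSign X a) {ι : Type} [Finite ι] [DecidableEq ι] {x y : ι} (n : x ≠ y) :
    (bigEquiv (Equiv.swap x y) (fun _ => X)).hom = a • 𝟙 _ := by
  let κ := {i : {i // i ≠ x} // i ≠ ⟨y, n.symm⟩}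
  let e : Option (Option κ) ≃ ι :=
    (Equiv.optionSubtypeNe (⟨y, n.symm⟩ : {i // i ≠ x})).optionCongr.trans
      (Equiv.optionSubtypeNe x)
  have k : (bigEquiv (optSwap κ) (fun _ => X)).hom = a • 𝟙 _ := by
    have k := bigEquiv_optSwap (ι := κ) (fun _ => X)
    rw [sw_hom, h, zsmul_whiskerRight, id_whiskerRight, Preadditive.zsmul_comp, Category.id_comp,
      Preadditive.comp_zsmul, Iso.inv_hom_id, Preadditive.comp_zsmul, Category.comp_id,
      Preadditive.comp_zsmul] at k
    rw [← cancel_mono ((bigOption _).hom ≫ _ ◁ (bigOption _).hom), k, Preadditive.zsmul_comp,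
      Category.id_comp]
  have k2 : Equiv.swap x y = e.symm.trans ((optSwap κ).trans e) := by
    refine Equiv.ext fun i => ?_
    obtain ⟨i, rfl⟩ := e.surjective i
    rw [Equiv.trans_apply e.symm, e.symm_apply_apply]
    rcases i with _ | _ | i
    · exact Equiv.swap_apply_left x y
    · exact Equiv.swap_apply_right x y
    · exact Equiv.swap_apply_of_ne_of_ne i.1.2 fun k => i.2 (Subtype.ext k)
  rw [k2, bigEquiv_trans, bigEquiv_trans, k, Preadditive.zsmul_comp, Category.id_comp,
    Preadditive.comp_zsmul, ← bigEquiv_trans (X := fun _ => X), Equiv.symm_trans_self,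
    bigEquiv_refl]

theorem perm (h : HasSign X a) {ι : Type} [Finite ι] [DecidableEq ι] (χ : Equiv.Perm ι →* ℤ)
    (hχ : ∀ x y, x ≠ y → χ (Equiv.swap x y) = a) (σ : Equiv.Perm ι) :
    (bigEquiv σ (fun _ => X)).hom = χ σ • 𝟙 _ := by
  induction σ using Equiv.Perm.swap_induction_on with
  | one => rw [map_one, one_smul]; exact bigEquiv_refl _
  | swap_mul σ x y n ih =>
    rw [map_mul, hχ x y n, Equiv.Perm.mul_def, bigEquiv_trans, ih, h.swap n,
      Preadditive.zsmul_comp, Category.id_comp, smul_smul, mul_comm]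

/-- Permutations act trivially on the powers of an even object. -/
theorem perm_even (h : HasSign X 1) {ι : Type} [Finite ι] (σ : Equiv.Perm ι) :
    (bigEquiv σ (fun _ => X)).hom = 𝟙 _ := by
  classical
  exact (h.perm 1 (fun _ _ _ => rfl) σ).trans (one_smul _ _)

/-- Permutations act through the sign on the powers of an odd object. -/
theorem perm_odd (h : HasSign X (-1)) {ι : Type} [Fintype ι] [DecidableEq ι] (σ : Equiv.Perm ι) :
    (bigEquiv σ (fun _ => X)).hom = (Equiv.Perm.sign σ : ℤ) • 𝟙 _ :=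
  h.perm ((Units.coeHom ℤ).comp Equiv.Perm.sign) (fun _ _ n => by simp [Equiv.Perm.sign_swap n]) σ

end HasSign

end Vale.Agent.P257.C
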