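import Vale.Agent.P257.D.Gr
import Vale.Agent.P257.A.Att
import Vale.Agent.P257.E.Act
import Vale.Agent.P257.F.Orb
import Mathlib.CategoryTheory.ObjectProperty.Local
import Mathlib.CategoryTheory.Limits.Constructions.EpiMono
import Mathlib.Algebra.Group.Pointwise.Set.BigOperators

/-!
# P257, block C: supports and generation in given degrees

For `X : EF (Gr J Γ)`: `Supp X P` says that `X` vanishes in the degrees outside of `P`; `Deg X P`
says that maps out of `X` only see the degrees in `P`.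
-/

open CategoryTheory MonoidalCategory Limits Pointwise OnePoint

namespace Vale.Agent.P257.C

open Vale.Agent.P257.A Vale.Agent.P257.D Vale.Agent.P257.D.EF
open Vale.Agent.P251.H (PQ tpow)
open Vale.Agent.P251.G (LC)

universe v u

section general

variable {M : Type u} [Category.{v} M] {W : MorphismProperty M}

theorem coloc_of_isOrb {ι : Type} {Y Q : M} {ρ : ι → (Y ⟶ Y)} {π : Y ⟶ Q} (h : F.IsOrb ρ π)
    (k : W.isColocal Y) : W.isColocal Q := fun _ _ g hg =>
  ⟨fun a b e => h.ext ((k g hg).1 (by simpa using π ≫= e)), fun a => by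
    obtain ⟨b, hb⟩ := (k g hg).2 (π ≫ a)
    obtain ⟨c, rfl⟩ := h.desc b fun i => (k g hg).1 (by simp [hb, reassoc_of% h.w i])
    exact ⟨c, h.ext (by simpa using hb)⟩⟩

theorem coloc_of_isColimit {K : Type} [SmallCategory K] {X : K ⥤ M} {c : Cocone X}
    (hc : IsColimit c) (h : ∀ j, W.isColocal (X.obj j)) : W.isColocal c.pt :=
  W.isColocal.prop_of_isColimit hc h

theorem coloc_of_isPushout {A B C D : M} {f : A ⟶ B} {g : A ⟶ C} {i : B ⟶ D} {j : C ⟶ D}
    (h : IsPushout f g i j) (hA : W.isColocal A) (hB : W.isColocal B) (hC : W.isColocal C) :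
    W.isColocal D :=
  coloc_of_isColimit h.isColimit fun k => by
    rcases k with _ | _ | _
    exacts [hA, hB, hC]

theorem coloc_action {G : Type} [Group G] {A Y Y' : Action M G} (h : W.isColocal A.V) (f : Y ⟶ Y')
    (hf : W f.hom) : Function.Bijective fun x : A ⟶ Y => x ≫ f :=
  ⟨fun a b e => Action.hom_ext _ _ ((h _ hf).1 (congrArg Action.Hom.hom e)), fun a => by
    obtain ⟨b, hb⟩ := (h _ hf).2 a.hom
    replace hb : b ≫ f.hom = a.hom := hb
    exact ⟨E.mkHom b fun g => (h _ hf).1 (by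
      simp only [Category.assoc, E.act_comm f g, reassoc_of% hb, hb, E.act_comm a g]),
      Action.hom_ext _ _ hb⟩⟩

theorem bijective_adj_iff {N : Type*} [Category* N] {L : M ⥤ N} {R : N ⥤ M} (a : L ⊣ R) (A : M)
    {X Y : N} (f : X ⟶ Y) : (Function.Bijective fun g : L.obj A ⟶ X => g ≫ f) ↔
      Function.Bijective fun g : A ⟶ R.obj X => g ≫ R.map f := by
  rw [← Equiv.comp_bijective _ (a.homEquiv A Y), ← (a.homEquiv A X).bijective_comp]
  exact iff_of_eq (congrArg _ (funext fun g => a.homEquiv_naturality_right g f))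

theorem bijective_tensor_iff [MonoidalCategory M] [MonoidalClosed M] (B A : M) {X Y : M}
    (f : X ⟶ Y) : (Function.Bijective fun g : B ⊗ A ⟶ X => g ≫ f) ↔
      Function.Bijective fun g : A ⟶ (ihom B).obj X => g ≫ (ihom B).map f :=
  bijective_adj_iff (ihom.adjunction B) A f

end general

variable {J : Type} [Idx J] {Γ : Type} [AddCommMonoid Γ] [Preorder Γ] [IsOrderedAddMonoid Γ]
  {X X' Y Y' : EF (Gr J Γ)} {P Q R : Set Γ}

theorem isZero_PQ {A : PQ} : IsZero A ↔ ∀ z : OnePoint A, z = ∞ :=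
  ⟨fun h z => congrArg (PQ.app · z) (h.eq_of_src (𝟙 A) 0),
    fun h => (IsZero.iff_id_eq_zero A).2 (PQ.hom_ext' h)⟩

/-- `X` vanishes in the degrees outside of `P` -/
def Supp (X : EF (Gr J Γ)) (P : Set Γ) : Prop := ∀ x : Gr J Γ, x.deg ∉ P → IsZero (X.obj x)

namespace Supp

theorem mono (h : Supp X P) (k : P ⊆ Q) : Supp X Q := fun x hx => h x fun l => hx (k l)

theorem univ : Supp X Set.univ := fun _ hx => (hx trivial).elim

theorem of_isZero (h : IsZero X) : Supp X P := fun x _ => isZero_ev h x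

theorem of_epi (h : Supp X P) (f : X ⟶ Y) [Epi f] : Supp Y P := fun x hx =>
  IsZero.of_epi (X := (ev x).obj X) (Y := (ev x).obj Y) ((ev x).map f) (h x hx)

theorem of_iso (h : Supp X P) (e : X ≅ Y) : Supp Y P := h.of_epi e.hom

theorem of_isColimit {K : Type} [SmallCategory K] {X : K ⥤ EF (Gr J Γ)} {c : Cocone X}
    (hc : IsColimit c) (h : ∀ j, Supp (X.obj j) P) : Supp c.pt P := fun x hx =>
  (IsZero.iff_id_eq_zero _).2 ((isColimitOfPreserves (ev x) hc).hom_ext fun j =>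
    (h j x hx).eq_of_src _ _)

theorem of_ext {ι : Type} {X : ι → EF (Gr J Γ)} (f : ∀ i, X i ⟶ Y)
    (k : ∀ {Z} {g g' : Y ⟶ Z}, (∀ i, f i ≫ g = f i ≫ g') → g = g') (h : ∀ i, Supp (X i) P) :
    Supp Y P :=
  have : Epi (Sigma.desc f) := ⟨fun _ _ e => k fun i => by simpa using Sigma.ι X i ≫= e⟩
  (of_isColimit (colimit.isColimit (Discrete.functor X)) fun i => h i.as).of_epi (Sigma.desc f)

theorem of_isPushout {A B C D : EF (Gr J Γ)} {f : A ⟶ B} {g : A ⟶ C} {i : B ⟶ D} {j : C ⟶ D}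
    (h : IsPushout f g i j) (hB : Supp B P) (hC : Supp C P) : Supp D P :=
  of_ext (X := fun b : Bool => cond b B C) (fun b => b.rec j i)
    (fun k => h.hom_ext (k true) (k false)) fun b => b.rec hC hB

theorem rep (x : Gr J Γ) : Supp (rep x) (Set.Ici x.deg) := fun _ h => Gr.isZero_rep h

theorem unit : Supp (𝟙_ (EF (Gr J Γ))) (Set.Ici 0) := rep _

theorem F (A : PQ) : Supp ((F (Gr J Γ)).obj A) (Set.Ici 0) := fun x hx => isZero_PQ.2 fun z => by
  obtain ⟨k, u, rfl⟩ := fm_surjective z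
  rw [Gr.eq_zero_of_not_le hx u, fm_zero]

theorem jC (K : LC) : Supp ((jC (Gr J Γ)).obj K) (Set.Ici 0) := F _

theorem tensor' (h : Supp X P) (k : Supp Y Q) (H : ∀ p ∈ P, ∀ q ∈ Q, ∀ r, p + q ≤ r → r ∈ R) :
    Supp (X ⊗ Y) R := fun z hz => isZero_PQ.2 fun t => by
  obtain ⟨a, b, w, x, y, rfl⟩ := exists_tm t
  by_cases ha : a.deg ∈ P
  · by_cases hb : b.deg ∈ Q
    · rw [Gr.eq_zero_of_not_le (fun l => hz (H _ ha _ hb _ l)) w, act_zero]
    · rw [isZero_PQ.1 (k b hb) y, tm_infty_right, act_infty]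
  · rw [isZero_PQ.1 (h a ha) x, tm_infty_left, act_infty]

theorem bigT {ι : Type} [Finite ι] {X : ι → EF (Gr J Γ)} (K : AddSubmonoid Γ)
    (hK : IsUpperSet (K : Set Γ)) (h : ∀ i, Supp (X i) K) : Supp (big X) K := by
  have k : ∀ l : List ι, Supp (evL X l) K := fun l => by
    induction l with
    | nil => exact unit.mono fun _ hr => hK hr K.zero_mem
    | cons i l ih => exact (h i).tensor' ih fun p hp q hq r hr => hK hr (K.add_mem hp hq)
  exact k _

/-- supports in an upper submonoid are preserved by cell attachments -/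
theorem of_isPres {c : X ⟶ Y} {B C : EF (Gr J Γ)} [MonObj B] {x : X ⟶ B} {p : ℕ → Prop}
    {g : ∀ (ι : Type) [Finite ι], B ⊗ pw ι Y ⟶ C} (h : IsPres c x p g)
    (k : ∀ n, p n → Supp (B ⊗ pw (Fin n) Y) P) : Supp C P :=
  of_ext (ι := {n // p n}) (fun n => g (Fin n)) (fun l => h.ext fun ι _ hp => by
    rw [← h.compat.equiv ι _ (Finite.equivFin ι) (by simpa using hp), Category.assoc,
      Category.assoc, l ⟨_, hp⟩]) fun n => k n n.2

theorem of_isAtt {c : X ⟶ Y} {B B' : CommMon (EF (Gr J Γ))} {x : X ⟶ B.X} {i : B ⟶ B'}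
    {χ : Y ⟶ B'.X} (h : IsAtt c x i χ) (K : AddSubmonoid Γ) (hK : IsUpperSet (K : Set Γ))
    (hB : Supp B.X K) (hY : Supp Y K) : Supp B'.X K :=
  of_isPres h.isPres fun _ _ => hB.tensor' (bigT K hK fun _ => hY)
    fun _ hp _ hq _ hr => hK hr (K.add_mem hp hq)

section weight

variable {w : Γ →+ ℤ} (hw : Monotone w) {r s : ℤ}
include hw

theorem of_Ici {g : Γ} (h : Supp X (Set.Ici g)) (k : r ≤ w g) : Supp X {g | r ≤ w g} :=
  h.mono fun _ l => k.trans (hw l)

theorem tensor_w (h : Supp X {g | r ≤ w g}) (k : Supp Y {g | s ≤ w g}) :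
    Supp (X ⊗ Y) {g | r + s ≤ w g} :=
  h.tensor' k fun p hp q hq _ l => ((add_le_add hp hq).trans (w.map_add p q).ge).trans (hw l)

theorem big_w {ι : Type} [Fintype ι] {X : ι → EF (Gr J Γ)} {r : ι → ℤ}
    (h : ∀ i, Supp (X i) {g | r i ≤ w g}) : Supp (big X) {g | ∑ i, r i ≤ w g} := by
  have k : ∀ l : List ι, Supp (evL X l) {g | (l.map r).sum ≤ w g} := fun l => by
    induction l with
    | nil => exact unit.of_Ici hw w.map_zero.ge
    | cons i l ih => exact (h i).tensor_w hw ih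
  have e : ∑ i, r i = ((enum ι).map r).sum := by
    rw [enum, Finset.sum_map_toList]
    exact Finset.sum_congr (Finset.ext fun i => iff_of_true (Finset.mem_univ _)
      (@Finset.mem_univ _ (Fintype.ofFinite ι) _)) fun _ _ => rfl
  exact e ▸ k _

theorem pw_w (ι : Type) [Finite ι] (h : Supp X {g | r ≤ w g}) :
    Supp (pw ι X) {g | Nat.card ι * r ≤ w g} := by
  have := Fintype.ofFinite ι
  simpa using big_w hw (X := fun _ : ι => X) fun _ => h

end weight

theorem tensor {Γ : Type} [AddCommGroup Γ] [Preorder Γ] [IsOrderedAddMonoid Γ]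
    {X Y : EF (Gr J Γ)} {P Q : Set Γ} (h : Supp X P) (k : Supp Y Q) (H : IsUpperSet P) :
    Supp (X ⊗ Y) (P + Q) :=
  h.tensor' k fun _ hp q hq r l => ⟨r - q, H (le_sub_iff_add_le.2 l) hp, q, hq, sub_add_cancel _ _⟩

end Supp

/-- levelwise isomorphisms in the degrees in `P` -/
def DegIso (J : Type) [Idx J] (P : Set Γ) : MorphismProperty (EF (Gr J Γ)) :=
  fun _ _ f => ∀ x : Gr J Γ, x.deg ∈ P → IsIso (f.app x)

theorem DegIso.mono {f : X ⟶ Y} (h : DegIso J Q f) (k : P ⊆ Q) : DegIso J P f :=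
  fun x hx => h x (k hx)

theorem DegIso.of_supp (f : X ⟶ Y) (h : Supp X Pᶜ) (k : Supp Y Pᶜ) : DegIso J P f :=
  fun x hx => (h x (not_not.2 hx)).isIso (k x (not_not.2 hx)) _

theorem bijective_smul_iff (f : X ⟶ Y) (x : Gr J Γ) (A : PQ) :
    (Function.Bijective fun g : smul A (rep x) ⟶ X => g ≫ f) ↔
      Function.Bijective fun g : A ⟶ X.obj x => g ≫ f.app x :=
  ((smulYoEquiv A Y x).comp_bijective _).symm.trans
    ((smulYoEquiv A X x).bijective_comp fun g : A ⟶ X.obj x => g ≫ f.app x)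

/-- maps out of `B` only see the degrees in `P` -/
def Deg (B : EF (Gr J Γ)) (P : Set Γ) : Prop :=
  ∀ (x : Gr J Γ) (A : PQ), (DegIso J (P + {x.deg})).isColocal (B ⊗ smul A (rep x))

theorem coloc_smul (x : Gr J Γ) (A : PQ) (h : x.deg ∈ P) :
    (DegIso J P).isColocal (smul A (rep x)) := fun _ _ f hf =>
  (bijective_smul_iff f x A).2 ((isIso_iff_yoneda_map_bijective _).1 (hf x h) A)

namespace Deg

theorem degIso_ihom (h : Deg X P) {f : Y ⟶ Y'} (hf : DegIso J (P + Q) f) :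
    DegIso J Q ((ihom X).map f) := fun x hx =>
  (isIso_iff_yoneda_map_bijective _).2 fun A => (bijective_smul_iff _ x A).1
    ((bijective_tensor_iff _ _ f).1 (h x A f
      (hf.mono (Set.add_subset_add_left (Set.singleton_subset_iff.2 hx)))))

theorem coloc_tensor (h : Deg X P) (k : (DegIso J Q).isColocal Y) :
    (DegIso J (P + Q)).isColocal (X ⊗ Y) :=
  fun _ _ f hf => (bijective_tensor_iff _ _ f).2 (k _ (h.degIso_ihom hf))

theorem mono (h : Deg X P) (k : P ⊆ Q) : Deg X Q :=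
  fun x A _ _ f hf => h x A f (hf.mono (Set.add_subset_add_right k))

theorem of_iso (h : Deg X P) (e : X ≅ Y) : Deg Y P :=
  fun x A => ObjectProperty.prop_of_iso _ (whiskerRightIso e _) (h x A)

theorem tensor (h : Deg X P) (k : Deg Y Q) : Deg (X ⊗ Y) (P + Q) := fun x A =>
  ObjectProperty.prop_of_iso _ (α_ _ _ _).symm (add_assoc P Q _ ▸ h.coloc_tensor (k x A))

theorem smul (x : Gr J Γ) (A : PQ) : Deg (smul A (rep x)) {x.deg} := fun y B =>
  ObjectProperty.prop_of_iso _ ((repF _ _).symm ≪≫ ((repTensor x y).symm ⊗ᵢ (muIso A B).symm) ≪≫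
    α_ _ _ _ ≪≫ whiskerLeftIso _ ((α_ _ _ _).symm ≪≫ whiskerRightIso (β_ _ _) _ ≪≫ α_ _ _ _) ≪≫
      (α_ _ _ _).symm ≪≫ (repF x A ⊗ᵢ repF y B))
    (coloc_smul (x ⊗ y) (A ⊗ B) (Set.add_mem_add rfl rfl))

theorem F (A : PQ) : Deg ((F (Gr J Γ)).obj A) {0} := smul (𝟙_ (Gr J Γ)) A

theorem jC (K : LC) : Deg ((jC (Gr J Γ)).obj K) {0} := F _

theorem unit : Deg (𝟙_ (EF (Gr J Γ))) {0} := (F _).of_iso (epsIso _).symm

theorem rep (x : Gr J Γ) : Deg (rep x) {x.deg} :=
  (smul x (𝟙_ PQ)).of_iso ((repF _ _).symm ≪≫ whiskerLeftIso _ (epsIso _).symm ≪≫ ρ_ _)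

/-- maps out of `X` only see the degrees in `P` -/
theorem coloc (h : Deg X P) : (DegIso J P).isColocal X :=
  ObjectProperty.prop_of_iso _ (whiskerLeftIso X (epsIso _).symm ≪≫ ρ_ X)
    (add_zero P ▸ h (𝟙_ _) (𝟙_ PQ))

theorem tensor_zero (h : Deg X P) (k : Deg Y {0}) : Deg (X ⊗ Y) P := by simpa using h.tensor k

theorem zero_tensor (h : Deg X {0}) (k : Deg Y P) : Deg (X ⊗ Y) P := by simpa using h.tensor k

theorem bigT {ι : Type} [Fintype ι] {X : ι → EF (Gr J Γ)} {P : ι → Set Γ}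
    (h : ∀ i, Deg (X i) (P i)) : Deg (big X) (∑ i, P i) := by
  have k : ∀ l : List ι, Deg (evL X l) (l.map P).sum := fun l => by
    induction l with
    | nil => exact unit
    | cons i l ih => exact (h i).tensor ih
  have e : ∑ i, P i = ((enum ι).map P).sum := by
    rw [enum, Finset.sum_map_toList]
    exact Finset.sum_congr (Finset.ext fun i => iff_of_true (Finset.mem_univ _)
      (@Finset.mem_univ _ (Fintype.ofFinite ι) _)) fun _ _ => rfl
  exact e ▸ k _

theorem tpow_zero (h : Deg X {0}) (n : ℕ) : Deg (tpow X n) {0} := by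
  induction n with
  | zero => exact unit
  | succ n ih => exact h.zero_tensor ih

theorem of_isColimit {K : Type} [SmallCategory K] {X : K ⥤ EF (Gr J Γ)} {c : Cocone X}
    (hc : IsColimit c) (h : ∀ j, Deg (X.obj j) P) : Deg c.pt P := fun x A =>
  coloc_of_isColimit (isColimitOfPreserves (tensorRight _) hc) fun j => h j x A

theorem of_isPushout {A B C D : EF (Gr J Γ)} {f : A ⟶ B} {g : A ⟶ C} {i : B ⟶ D} {j : C ⟶ D}
    (h : IsPushout f g i j) (hA : Deg A P) (hB : Deg B P) (hC : Deg C P) : Deg D P :=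
  of_isColimit h.isColimit fun k => by
    rcases k with _ | _ | _
    exacts [hA, hB, hC]

theorem of_isOrb {ι : Type} {ρ : ι → (X ⟶ X)} {π : X ⟶ Y} (h : F.IsOrb ρ π) (k : Deg X P) :
    Deg Y P := fun x A => coloc_of_isOrb (h.map (tensorRight _)) (k x A)

theorem of_isZero (h : IsZero X) : Deg X P := fun _ _ _ _ _ _ =>
  have := (tensorRight _).map_isZero h
  ⟨fun _ _ _ => this.eq_of_src _ _, fun _ => ⟨0, this.eq_of_src _ _⟩⟩

end Deg

end Vale.Agent.P257.C
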