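import Vale.Agent.P257.C.Cells
import Mathlib.Algebra.Group.Pointwise.Set.BigOperators

/-!
# P257, block C: the connectivity calculus

`c.Van Y d`: every map `c.obj d ⟶ Y` is zero.  `c.TConn X P`: with respect to vanishing,
`- ⊗ X` behaves like a sum of cells of degrees in `P`.  `c.TEq f`: `Y ◁ f` is bijective on maps out
of cells for all `Y`.
-/

open CategoryTheory MonoidalCategory Limits Pointwise

namespace Vale.Agent.P257.C

open Vale.Agent.P257.A

universe v u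

variable {C : Type u} [Category.{v} C] [MonoidalCategory C] [Preadditive C] {Δ : Type}
  [AddCommGroup Δ] {A B D X X' Y Y' : C} {P Q : Set Δ} {d e : Δ}

/-- exactness at the middle term, after tensoring with any object -/
def Ex (a : A ⟶ B) (b : B ⟶ D) : Prop :=
  ∀ (Y W : C) (f : W ⟶ Y ⊗ B), f ≫ Y ◁ b = 0 → ∃ g : W ⟶ Y ⊗ A, g ≫ Y ◁ a = f

theorem Ex.whiskerLeft {a : A ⟶ B} {b : B ⟶ D} (h : Ex a b) (X : C) : Ex (X ◁ a) (X ◁ b) :=
  fun Y W f k => by
    obtain ⟨g, hg⟩ := h (Y ⊗ X) W (f ≫ (α_ _ _ _).inv) (by simp [reassoc_of% k])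
    exact ⟨g ≫ (α_ _ _ _).hom, by
      rw [Category.assoc, ← associator_naturality_right, reassoc_of% hg, Iso.inv_hom_id,
        Category.comp_id]⟩

theorem Ex.lift {a : A ⟶ B} {b : B ⟶ D} (h : Ex a b) {W : C} (f : W ⟶ B) (k : f ≫ b = 0) :
    ∃ g : W ⟶ A, g ≫ a = f := by
  obtain ⟨g, hg⟩ := h (𝟙_ C) W (f ≫ (λ_ _).inv) (by simp [reassoc_of% k])
  exact ⟨g ≫ (λ_ _).hom, by
    rw [Category.assoc, ← leftUnitor_naturality, reassoc_of% hg, Iso.inv_hom_id, Category.comp_id]⟩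

namespace Cells

variable (c : Cells C Δ)

/-- every map from the cell of degree `d` to `Y` is zero -/
def Van (Y : C) (d : Δ) : Prop := ∀ f : c.obj d ⟶ Y, f = 0

/-- `- ⊗ X` behaves like a sum of cells of degrees in `P` -/
def TConn (X : C) (P : Set Δ) : Prop :=
  ∀ (Y : C) (d : Δ), (∀ p ∈ P, c.Van Y (d - p)) → c.Van (Y ⊗ X) d

/-- `f` is bijective on maps out of cells, after tensoring with any object -/
def TEq (f : A ⟶ B) : Prop :=
  ∀ (Y : C) (d : Δ), Function.Bijective fun g : c.obj d ⟶ Y ⊗ A => g ≫ Y ◁ f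

variable {c}

namespace Van

theorem of_sum {ι : Type*} (s : Finset ι) {Z : ι → C} (i : ∀ k, Y ⟶ Z k) (r : ∀ k, Z k ⟶ Y)
    [IsIso (∑ k ∈ s, i k ≫ r k)] (h : ∀ k ∈ s, c.Van (Z k) d) : c.Van Y d := fun f => by
  rw [← cancel_mono (∑ k ∈ s, i k ≫ r k), zero_comp, Preadditive.comp_sum]
  exact Finset.sum_eq_zero fun k hk => by rw [← Category.assoc, h k hk (f ≫ i k), zero_comp]

theorem of_mono (h : c.Van Y' d) (i : Y ⟶ Y') [Mono i] : c.Van Y d := fun f => by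
  rw [← cancel_mono i, zero_comp, h (f ≫ i)]

theorem of_retract (h : c.Van Y' d) (i : Y ⟶ Y') (r : Y' ⟶ Y) [IsIso (i ≫ r)] : c.Van Y d :=
  have := mono_of_mono i r
  h.of_mono i

theorem of_iso (h : c.Van Y d) (i : Y ≅ Y') : c.Van Y' d := h.of_mono i.inv

theorem of_isZero (h : IsZero Y) : c.Van Y d := fun f => h.eq_of_tgt f 0

theorem ex {a : A ⟶ B} {b : B ⟶ D} (k : Ex a b) (hA : c.Van A d) (hD : c.Van D d) : c.Van B d :=
  fun f => by
    obtain ⟨g, rfl⟩ := k.lift f (hD _)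
    rw [hA g, zero_comp]

theorem chain {F G : ℕ → C} {i : ∀ k, F k ⟶ F (k + 1)} {q : ∀ k, F (k + 1) ⟶ G k} (n : ℕ)
    (k : ∀ k < n, Ex (i k) (q k)) (h0 : c.Van (F 0) d) (h : ∀ k < n, c.Van (G k) d) :
    c.Van (F n) d := by
  induction n with
  | zero => exact h0
  | succ n ih =>
    exact (ih (fun l hl => k l (by omega)) fun l hl => h l (by omega)).ex (k n (by omega))
      (h n (by omega))

theorem of_tEq {f : A ⟶ B} (k : c.TEq f) : c.Van (Y ⊗ A) d ↔ c.Van (Y ⊗ B) d :=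
  ⟨fun h g => by
    obtain ⟨g, rfl⟩ := (k Y d).2 g
    simp only [h g, zero_comp], fun h g => (k Y d).1 ((h _).trans (h _).symm)⟩

variable [MonoidalPreadditive C]

theorem tensor (h : c.Van Y (d - e)) : c.Van (Y ⊗ c.obj e) d := fun f => by
  let i : c.obj (d - e) ≅ c.obj d ⊗ c.obj (-e) :=
    eqToIso (congrArg _ (sub_eq_add_neg d e)) ≪≫ (c.add _ _).symm
  let j : (Y ⊗ c.obj e) ⊗ c.obj (-e) ≅ Y := α_ _ _ _ ≪≫ whiskerLeftIso _ (c.inv' e) ≪≫ ρ_ _
  have k : f ▷ c.obj (-e) = 0 := by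
    rw [← cancel_epi i.hom, ← cancel_mono j.hom, Category.assoc, h (i.hom ≫ _), comp_zero,
      zero_comp]
  have k2 : f ▷ (c.obj (-e) ⊗ c.obj e) = 0 := by
    rw [whiskerRight_tensor, k, MonoidalPreadditive.zero_whiskerRight, zero_comp, comp_zero]
  rw [← cancel_epi (ρ_ _).hom, ← rightUnitor_naturality, ← cancel_epi (_ ◁ (c.inv e).hom),
    whisker_exchange_assoc, k2, zero_comp, comp_zero, comp_zero]

theorem tensor_iff : c.Van (Y ⊗ c.obj e) d ↔ c.Van Y (d - e) :=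
  ⟨fun h => (tensor (e := -e) (by rwa [sub_neg_eq_add, sub_add_cancel])).of_iso
    (α_ _ _ _ ≪≫ whiskerLeftIso _ (c.inv' e) ≪≫ ρ_ _), tensor⟩

end Van

namespace TConn

theorem mono (h : c.TConn X P) (k : P ⊆ Q) : c.TConn X Q :=
  fun Y d l => h Y d fun p hp => l p (k hp)

theorem van (h : c.TConn X P) (k : ∀ p ∈ P, c.Van (𝟙_ C) (d - p)) : c.Van X d :=
  (h _ d k).of_iso (λ_ X)

theorem of_retract (h : c.TConn X' P) (i : X ⟶ X') (r : X' ⟶ X) [IsIso (i ≫ r)] : c.TConn X P :=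
  fun Y d l =>
    have : IsIso (Y ◁ i ≫ Y ◁ r) := by
      rw [← MonoidalCategory.whiskerLeft_comp]
      infer_instance
    (h Y d l).of_retract (Y ◁ i) (Y ◁ r)

theorem of_iso (h : c.TConn X P) (i : X ≅ X') : c.TConn X' P :=
  fun Y d l => (h Y d l).of_iso (whiskerLeftIso Y i)

theorem unit : c.TConn (𝟙_ C) {0} :=
  fun Y d l => Van.of_iso (by simpa using l 0 rfl) (ρ_ Y).symm

theorem tensor (h : c.TConn X P) (k : c.TConn X' Q) : c.TConn (X ⊗ X') (P + Q) := fun Y d l =>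
  (k _ d fun q hq => h Y _ fun p hp => by
    rw [sub_sub, add_comm]
    exact l _ (Set.add_mem_add hp hq)).of_iso (α_ _ _ _)

theorem ex {a : A ⟶ B} {b : B ⟶ D} (k : Ex a b) (hA : c.TConn A P) (hD : c.TConn D P) :
    c.TConn B P := fun Y d l => (hA Y d l).ex (k.whiskerLeft Y) (hD Y d l)

theorem chain {F G : ℕ → C} {i : ∀ k, F k ⟶ F (k + 1)} {q : ∀ k, F (k + 1) ⟶ G k} (n : ℕ)
    (k : ∀ k < n, Ex (i k) (q k)) (h0 : c.TConn (F 0) P) (h : ∀ k < n, c.TConn (G k) P) :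
    c.TConn (F n) P := fun Y d l =>
  Van.chain (F := fun k => Y ⊗ F k) n (fun m hm => (k m hm).whiskerLeft Y) (h0 Y d l)
    fun m hm => h m hm Y d l

theorem of_tEq {f : A ⟶ B} (k : c.TEq f) : c.TConn A P ↔ c.TConn B P :=
  ⟨fun h Y d l => (Van.of_tEq k).1 (h Y d l), fun h Y d l => (Van.of_tEq k).2 (h Y d l)⟩

theorem tpow (h : c.TConn X P) (n : ℕ) : c.TConn (P251.H.tpow X n) (n • P) := by
  induction n with
  | zero => exact unit
  | succ n ih => exact succ_nsmul' P n ▸ h.tensor ih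

theorem bigT [SymmetricCategory C] {ι : Type} [Fintype ι] {X : ι → C} {P : ι → Set Δ}
    (h : ∀ i, c.TConn (X i) (P i)) : c.TConn (big X) (∑ i, P i) := by
  have k : ∀ l : List ι, c.TConn (evL X l) (l.map P).sum := fun l => by
    induction l with
    | nil => exact unit
    | cons i l ih => exact (h i).tensor ih
  have e : ∑ i, P i = ((enum ι).map P).sum := by
    rw [enum, Finset.sum_map_toList]
    exact Finset.sum_congr (Finset.ext fun i => iff_of_true (Finset.mem_univ _)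
      (@Finset.mem_univ _ (Fintype.ofFinite ι) _)) fun _ _ => rfl
  exact e ▸ k _

variable [MonoidalPreadditive C]

theorem of_sum {ι : Type*} (s : Finset ι) {Z : ι → C} (i : ∀ k, X ⟶ Z k) (r : ∀ k, Z k ⟶ X)
    [IsIso (∑ k ∈ s, i k ≫ r k)] (h : ∀ k ∈ s, c.TConn (Z k) P) : c.TConn X P := fun Y d l =>
  have : IsIso (∑ k ∈ s, Y ◁ i k ≫ Y ◁ r k) := by
    simp only [← MonoidalCategory.whiskerLeft_comp, ← whiskerLeft_sum]
    infer_instance
  Van.of_sum s (fun k => Y ◁ i k) (fun k => Y ◁ r k) fun k hk => h k hk Y d l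

theorem of_isZero (h : IsZero X) : c.TConn X P := fun Y _ _ => Van.of_isZero (by
  rw [IsZero.iff_id_eq_zero, ← MonoidalCategory.whiskerLeft_id, h.eq_of_src (𝟙 X) 0,
    MonoidalPreadditive.whiskerLeft_zero])

theorem cell (e : Δ) : c.TConn (c.obj e) {e} := fun _ _ l => (l e rfl).tensor

theorem of_tensor_cell (h : c.TConn (X ⊗ c.obj e) P) : c.TConn X (P + {-e}) :=
  (h.tensor (cell (-e))).of_iso (α_ _ _ _ ≪≫ whiskerLeftIso _ (c.inv' e) ≪≫ ρ_ _)

end TConn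

namespace TEq

omit [Preadditive C]

theorem of_isIso (f : A ⟶ B) [IsIso f] : c.TEq f := fun Y _ =>
  ⟨fun _ _ k => (cancel_mono (Y ◁ f)).1 k, fun g => ⟨g ≫ CategoryTheory.inv (Y ◁ f), by simp⟩⟩

theorem comp {f : A ⟶ B} {g : B ⟶ D} (h : c.TEq f) (k : c.TEq g) : c.TEq (f ≫ g) := fun Y d => by
  simpa [Function.comp_def] using (k Y d).comp (h Y d)

theorem of_comp_left {f : A ⟶ B} {g : B ⟶ D} (h : c.TEq f) (k : c.TEq (f ≫ g)) : c.TEq g :=
  fun Y d => (Function.Bijective.of_comp_iff _ (h Y d)).1 (by simpa [Function.comp_def] using k Y d)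

theorem of_comp_right {f : A ⟶ B} {g : B ⟶ D} (h : c.TEq g) (k : c.TEq (f ≫ g)) : c.TEq f :=
  fun Y d => (Function.Bijective.of_comp_iff' (h Y d) _).1
    (by simpa [Function.comp_def] using k Y d)

theorem whiskerLeft {f : A ⟶ B} (h : c.TEq f) (X : C) : c.TEq (X ◁ f) := fun Y d => by
  have e : ∀ {A B : C} (i : A ≅ B), Function.Bijective fun g : c.obj d ⟶ A => g ≫ i.hom :=
    fun i => ⟨fun _ _ k => (cancel_mono _).1 k, fun g => ⟨g ≫ i.inv, by simp⟩⟩
  simpa [Function.comp_def] using (e (α_ Y X B)).comp ((h (Y ⊗ X) d).comp (e (α_ Y X A).symm))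

theorem whiskerRight [SymmetricCategory C] {f : A ⟶ B} (h : c.TEq f) (X : C) : c.TEq (f ▷ X) := by
  rw [show f ▷ X = (β_ _ _).hom ≫ X ◁ f ≫ (β_ _ _).hom by simp]
  exact (of_isIso _).comp ((h.whiskerLeft X).comp (of_isIso _))

theorem tensorHom [SymmetricCategory C] {f : A ⟶ B} {g : X ⟶ X'} (h : c.TEq f) (k : c.TEq g) :
    c.TEq (f ⊗ₘ g) := by
  rw [tensorHom_def]
  exact (h.whiskerRight _).comp (k.whiskerLeft _)

/-- bijectivity without a tensor factor -/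
theorem bijective {f : A ⟶ B} (h : c.TEq f) (d : Δ) :
    Function.Bijective fun g : c.obj d ⟶ A => g ≫ f := by
  have e : ∀ {A B : C} (i : A ≅ B), Function.Bijective fun g : c.obj d ⟶ A => g ≫ i.hom :=
    fun i => ⟨fun _ _ k => (cancel_mono _).1 k, fun g => ⟨g ≫ i.inv, by simp⟩⟩
  simpa [Function.comp_def] using (e (λ_ B)).comp ((h (𝟙_ C) d).comp (e (λ_ A).symm))

variable [Preadditive C]

/-- a map between objects of an exact sequence with acyclic outer terms -/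
theorem of_ex [MonoidalPreadditive C] {a : X ⟶ A} {f : A ⟶ B} {b : B ⟶ X'} (h : Ex a f)
    (k : Ex f b) (hX : c.TConn X ∅) (hX' : c.TConn X' ∅) : c.TEq f := fun Y d => by
  refine ⟨fun g g' l => sub_eq_zero.1 ?_, fun g => k Y _ g (hX' Y d (by simp) _)⟩
  obtain ⟨w, hw⟩ := h Y _ (g - g') (by rw [Preadditive.sub_comp]; exact sub_eq_zero.2 l)
  rw [← hw, hX Y d (by simp) w, zero_comp]

/-- the third term of a triangle on a `TEq` is acyclic -/
theorem tConn {f : A ⟶ B} {b : B ⟶ D} {z : D ⟶ X} {f' : X ⟶ X'} (h : c.TEq f) (h' : c.TEq f')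
    (k0 : ∀ Y, Y ◁ f ≫ Y ◁ b = 0) (k : Ex b z) (k1 : ∀ Y, Y ◁ z ≫ Y ◁ f' = 0) : c.TConn D ∅ :=
  fun Y d _ g => by
    obtain ⟨w, rfl⟩ := k Y _ g ((h' Y d).1 (by simp only [Category.assoc, k1, comp_zero, zero_comp]))
    obtain ⟨w, rfl⟩ := (h Y d).2 w
    simp only [Category.assoc, k0, comp_zero]

end TEq

end Cells

/-- the degrees of weight `g` and dimension at least `r` -/
def Up {Γ : Type} (g : Γ) (r : ℤ) : Set (ℤ × Γ) := {p | p.2 = g ∧ r ≤ p.1}

namespace Cells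

variable {Γ : Type} [AddCommGroup Γ] (c : Cells C (ℤ × Γ)) {g g' : Γ} {r r' : ℤ}

/-- `- ⊗ X` behaves like a sum of cells of weight `g` and dimension at least `r` -/
def Conn (X : C) (g : Γ) (r : ℤ) : Prop := c.TConn X (Up g r)

variable {c}

theorem conn_iff : c.Conn X g r ↔ ∀ (Y : C) (k : ℤ) (a : Γ),
    (∀ l ≤ k - r, c.Van Y (l, a - g)) → c.Van (Y ⊗ X) (k, a) :=
  ⟨fun h Y k a l => h Y _ fun ⟨m, _⟩ ⟨rfl, hp⟩ => l (k - m) (sub_le_sub_left hp _),
    fun h Y ⟨k, a⟩ l => h Y k a fun m hm => by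
      simpa using l (k - m, g) ⟨rfl, le_sub_comm.1 hm⟩⟩

namespace Conn

theorem van (h : c.Conn X g r) {k : ℤ} {a : Γ} (l : ∀ l ≤ k - r, c.Van Y (l, a - g)) :
    c.Van (Y ⊗ X) (k, a) := conn_iff.1 h Y k a l

theorem mono (h : c.Conn X g r) (k : r' ≤ r) : c.Conn X g r' :=
  TConn.mono h fun _ hp => ⟨hp.1, k.trans hp.2⟩

theorem of_empty (h : c.TConn X ∅) : c.Conn X g r := h.mono (Set.empty_subset _)

theorem unit : c.Conn (𝟙_ C) 0 0 := TConn.unit.mono fun _ hp => hp ▸ ⟨rfl, le_rfl⟩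

theorem tensor (h : c.Conn X g r) (k : c.Conn X' g' r') : c.Conn (X ⊗ X') (g + g') (r + r') :=
  (TConn.tensor h k).mono fun _ ⟨_, hp, _, hq, e⟩ =>
    e ▸ ⟨congrArg₂ (· + ·) hp.1 hq.1, add_le_add hp.2 hq.2⟩

theorem tpow (h : c.Conn X g r) (n : ℕ) : c.Conn (P251.H.tpow X n) (n • g) (n * r) := by
  induction n with
  | zero =>
    rw [zero_smul, Nat.cast_zero, zero_mul]
    exact unit
  | succ n ih =>
    rw [succ_nsmul', Nat.cast_succ, add_mul, one_mul, add_comm _ r]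
    exact h.tensor ih

theorem bigT [SymmetricCategory C] {ι : Type} [Fintype ι] {X : ι → C} {g : ι → Γ} {r : ι → ℤ}
    (h : ∀ i, c.Conn (X i) (g i) (r i)) : c.Conn (big X) (∑ i, g i) (∑ i, r i) :=
  (TConn.bigT h).mono fun p hp => by
    obtain ⟨q, hq, rfl⟩ := (Set.mem_fintype_sum _ _).1 hp
    exact ⟨(Prod.snd_sum ..).trans (Finset.sum_congr rfl fun i _ => (hq i).1),
      (Finset.sum_le_sum fun i _ => (hq i).2).trans (Prod.fst_sum ..).ge⟩

theorem cell [MonoidalPreadditive C] (r : ℤ) (g : Γ) : c.Conn (c.obj (r, g)) g r :=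
  (TConn.cell _).mono fun _ hp => hp ▸ ⟨rfl, le_rfl⟩

theorem of_tensor_cell [MonoidalPreadditive C] (h : c.Conn (X ⊗ c.obj (r', g')) g r) :
    c.Conn X (g - g') (r - r') :=
  (TConn.of_tensor_cell h).mono fun _ ⟨_, hp, _, hq, e⟩ => by
    obtain rfl : _ = _ := hq
    rw [sub_eq_add_neg, sub_eq_add_neg]
    exact e ▸ ⟨congrArg (· + _) hp.1, add_le_add hp.2 le_rfl⟩

end Conn

end Cells

end Vale.Agent.P257.C
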